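import Vale.Agent.P268.T.H530.Rep
import Vale.Agent.P268.T.Blocks1

/-!
# P268, topological half: the gated ray function is equivalent to the ray function of the staircase

`GR ε c M b` : sup over the box of `∑ j, ray ε (p j) (x j)` minus the penalties
`M j * b j (x (j + 1))` for the indices `j` with `p j = c j - 1` (last ray of the variable `j`).
The penalties are moved to penalties which kill exactly the points of the box outside of the
staircase.
-/

set_option linter.unusedSectionVars false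

namespace Vale.Agent.P268.T

open Set Filter Topology

namespace GateR

/-! ### regularity from the behaviour in one variable -/

section Reg

variable {ι : Type} [Fintype ι] [DecidableEq ι] {Θ : Type*} [TopologicalSpace Θ]

theorem sum_update_diff (f : ι → ℂ → ℝ) (y : ι → ℂ) (j : ι) (w : ℂ) :
    ∑ i, f i (y i) = ∑ i, f i (Function.update y j w i) + (f j (y j) - f j w) := by
  rw [← Finset.add_sum_erase Finset.univ (fun i => f i (y i)) (Finset.mem_univ j),
    ← Finset.add_sum_erase Finset.univ (fun i => f i (Function.update y j w i))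
      (Finset.mem_univ j)]
  have h : ∑ i ∈ Finset.univ.erase j, f i (Function.update y j w i) =
      ∑ i ∈ Finset.univ.erase j, f i (y i) := by
    refine Finset.sum_congr rfl fun i hi => ?_
    rw [Function.update_of_ne (Finset.ne_of_mem_erase hi)]
  rw [h]
  simp only [Function.update_self]
  ring

theorem mon_pos_on {ε : ℝ} (hε : 0 < ε) {j : ι} {k : ℕ} {F : (ι → ℂ) → ℂ} {w : ℂ}
    {U : Set (ι → ℂ)}
    (h : ∀ y ∈ U, F y = F (Function.update y j w) +
      ⟨ray ε k (y j) - ray ε k w, turn (y j) - turn w⟩)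
    (h0 : ∀ y ∈ U, 0 < (y j).re) (h1 : ∀ y ∈ U, |(y j).im - k * (y j).re| < (y j).re / 4) :
    MonOn (1 / 2) 3 F (AD j k 1 ε⁻¹) U := by
  have hR : ε * ε⁻¹ = 1 := mul_inv_cancel₀ hε.ne'
  intro y hy c hz
  have ez := h _ hz
  have ey := h _ hy
  have hz2 := h0 _ hz
  have hz3 := h1 _ hz
  rw [add_AD] at hz2 hz3 ez ⊢
  rw [Function.update_self] at hz2 hz3 ez
  rw [Function.update_idem] at ez
  obtain ⟨h1, h2⟩ := incr_pos hR (h0 _ hy) hz2 (h1 _ hy).le hz3.le
  refine mon_step ?_ ?_
  · rw [ez, ey]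
    have : (F (Function.update y j w) + (⟨ray ε k (y j + D k 1 ε⁻¹ c) - ray ε k w,
        turn (y j + D k 1 ε⁻¹ c) - turn w⟩ : ℂ) - (F (Function.update y j w) +
        ⟨ray ε k (y j) - ray ε k w, turn (y j) - turn w⟩)).re - c.re =
      ray ε k (y j + D k 1 ε⁻¹ c) - ray ε k (y j) - c.re := by simp
    rw [this]
    exact h1
  · rw [ez, ey, ← h2]
    simp

theorem mon_neg_on {ε : ℝ} (hε : 0 < ε) {j : ι} {k : ℕ} {F : (ι → ℂ) → ℂ} {w : ℂ}
    {U : Set (ι → ℂ)}
    (h : ∀ y ∈ U, F y = F (Function.update y j w) +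
      ⟨ray ε k (y j) - ray ε k w, turn (y j) - turn w⟩)
    (h0 : ∀ y ∈ U, (y j).re < 0) (h1 : ∀ y ∈ U, |(y j).im| < |(y j).re| / 4) :
    MonOn (1 / 2) 3 F (AD j k (-1) ε⁻¹) U := by
  have hR : ε * ε⁻¹ = 1 := mul_inv_cancel₀ hε.ne'
  intro y hy c hz
  have ez := h _ hz
  have ey := h _ hy
  have hz2 := h0 _ hz
  have hz3 := h1 _ hz
  rw [add_AD] at hz2 hz3 ez ⊢
  rw [Function.update_self] at hz2 hz3 ez
  rw [Function.update_idem] at ez
  obtain ⟨h1, h2⟩ := incr_neg (k := k) hR (h0 _ hy) hz2 (h1 _ hy).le hz3.le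
  refine mon_step ?_ ?_
  · rw [ez, ey]
    have : (F (Function.update y j w) + (⟨ray ε k (y j + D k (-1) ε⁻¹ c) - ray ε k w,
        turn (y j + D k (-1) ε⁻¹ c) - turn w⟩ : ℂ) - (F (Function.update y j w) +
        ⟨ray ε k (y j) - ray ε k w, turn (y j) - turn w⟩)).re - c.re =
      ray ε k (y j + D k (-1) ε⁻¹ c) - ray ε k (y j) - c.re := by simp
    rw [this]
    exact h1
  · rw [ez, ey, ← h2]
    simp

/-- A family which near `(t₀, x)` is `ray ε k (y j) + i turn (y j)` plus a function that does not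
depend on the variable `j` is regular at `(t₀, x)`. -/
theorem regAt_of_diff {s : Set Θ} {F : Θ → (ι → ℂ) → ℂ} {t₀ : Θ} {x : ι → ℂ} {ε : ℝ} (hε : 0 < ε)
    {j : ι} {k : ℕ} (h0 : (x j).re ≠ 0)
    (hx : |(x j).im - k * max (x j).re 0| < |(x j).re| / 4)
    (h : ∀ᶠ p : Θ × (ι → ℂ) in 𝓝[s] t₀ ×ˢ 𝓝 x, F p.1 p.2 = F p.1 (Function.update p.2 j (x j)) +
      ⟨ray ε k (p.2 j) - ray ε k (x j), turn (p.2 j) - turn (x j)⟩) : RegAt s F t₀ x := by
  obtain ⟨pa, ha, pb, hb, hab⟩ := Filter.eventually_prod_iff.1 h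
  rcases lt_or_gt_of_ne h0 with h1 | h1
  · rw [max_eq_right h1.le, mul_zero, sub_zero] at hx
    have hc1 : ContinuousAt (fun y : ι → ℂ => (y j).re) x :=
      (Complex.continuous_re.comp (continuous_apply j)).continuousAt
    have hc2 : ContinuousAt (fun y : ι → ℂ => |(y j).im|) x :=
      ((Complex.continuous_im.comp (continuous_apply j)).abs).continuousAt
    have e1 : ∀ᶠ y : ι → ℂ in 𝓝 x, (y j).re < 0 := hc1.eventually (gt_mem_nhds h1)
    have e2 : ∀ᶠ y : ι → ℂ in 𝓝 x, |(y j).im| < |(y j).re| / 4 :=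
      hc2.eventually_lt (hc1.abs.div_const 4) hx
    refine RegAt.of_monOn (κ := 1 / 2) (K := 3) (by norm_num) (A := AD j k (-1) ε⁻¹)
      (U := {y | pb y ∧ (y j).re < 0 ∧ |(y j).im| < |(y j).re| / 4}) (hb.and (e1.and e2)) ?_
    filter_upwards [ha] with t ht
    exact mon_neg_on hε (fun y hy => hab ht hy.1) (fun y hy => hy.2.1) (fun y hy => hy.2.2)
  · rw [max_eq_left h1.le, abs_of_pos h1] at hx
    have hc1 : ContinuousAt (fun y : ι → ℂ => (y j).re) x :=
      (Complex.continuous_re.comp (continuous_apply j)).continuousAt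
    have hc2 : ContinuousAt (fun y : ι → ℂ => |(y j).im - k * (y j).re|) x :=
      (((Complex.continuous_im.comp (continuous_apply j)).sub
        (continuous_const.mul (Complex.continuous_re.comp (continuous_apply j)))).abs).continuousAt
    have e1 : ∀ᶠ y : ι → ℂ in 𝓝 x, 0 < (y j).re := hc1.eventually (lt_mem_nhds h1)
    have e2 : ∀ᶠ y : ι → ℂ in 𝓝 x, |(y j).im - k * (y j).re| < (y j).re / 4 :=
      hc2.eventually_lt (hc1.div_const 4) hx
    refine RegAt.of_monOn (κ := 1 / 2) (K := 3) (by norm_num) (A := AD j k 1 ε⁻¹)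
      (U := {y | pb y ∧ 0 < (y j).re ∧ |(y j).im - k * (y j).re| < (y j).re / 4})
      (hb.and (e1.and e2)) ?_
    filter_upwards [ha] with t ht
    exact mon_pos_on hε (fun y hy => hab ht hy.1) (fun y hy => hy.2.1) (fun y hy => hy.2.2)

end Reg

/-- local comparison of a supremum at `z` and at `π z` -/
theorem sup_diff {σ : Type*} [Fintype σ] [Nonempty σ] {X : Type*} {l : Filter X}
    {V : σ → X → ℝ} {π : X → X} {d : X → ℝ} (hπ : Tendsto π l l) (Q : σ → Prop)
    (h1 : ∀ p, ∃ p', Q p' ∧ ∀ᶠ z in l, V p z ≤ V p' z)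
    (h2 : ∀ p, Q p → ∀ᶠ z in l, V p z = V p (π z) + d z) :
    ∀ᶠ z in l, (Finset.univ.sup' Finset.univ_nonempty fun p => V p z) =
      (Finset.univ.sup' Finset.univ_nonempty fun p => V p (π z)) + d z := by
  choose p' hp' h1 using h1
  have h3 : ∀ᶠ z in l, ∀ p, V p z ≤ V (p' p) z := eventually_all.2 h1
  have h4 : ∀ᶠ z in l, ∀ p, V p (π z) ≤ V (p' p) (π z) := hπ.eventually h3
  have h5 : ∀ᶠ z in l, ∀ p, Q p → V p z = V p (π z) + d z := by
    refine eventually_all.2 fun p => ?_
    by_cases hp : Q p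
    · filter_upwards [h2 p hp] with z hz _ using hz
    · exact Eventually.of_forall fun z h => absurd h hp
  filter_upwards [h3, h4, h5] with z a3 a4 a5
  apply le_antisymm
  · refine Finset.sup'_le _ _ fun p _ => ?_
    calc V p z ≤ V (p' p) z := a3 p
      _ = V (p' p) (π z) + d z := a5 _ (hp' p)
      _ ≤ _ := by
        have := Finset.le_sup' (fun p => V p (π z)) (Finset.mem_univ (p' p))
        linarith
  · rw [← le_sub_iff_add_le]
    refine Finset.sup'_le _ _ fun p _ => ?_
    rw [le_sub_iff_add_le]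
    calc V p (π z) + d z ≤ V (p' p) (π z) + d z := by linarith [a4 p]
      _ = V (p' p) z := (a5 _ (hp' p)).symm
      _ ≤ _ := Finset.le_sup' (fun p => V p z) (Finset.mem_univ (p' p))

end GateR

end Vale.Agent.P268.T
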