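import Vale.Agent.P268.T.H530.Gate
import Vale.Agent.P268.T.H500.FSide

/-!
# P268, topological half: the gated ray function `GR` and the penalty path
-/

set_option linter.unusedSectionVars false

namespace Vale.Agent.P268.T

open Set Filter Topology Vale.Agent.P268.Z

namespace GateR

/-! ### the box -/

/-- all ray indices; the last variable does not use its last ray -/
def BoxP (c : List ℕ) (p : Fin c.length → ℕ) : Prop :=
  ∀ j : Fin c.length, p j + 1 < c.get j ∨ (p j + 1 = c.get j ∧ (j : ℕ) + 1 < c.length)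

theorem BoxP.lt {c : List ℕ} {p : Fin c.length → ℕ} (h : BoxP c p) (j : Fin c.length) :
    p j < c.get j := by
  rcases h j with h | ⟨h, _⟩ <;> omega

abbrev Box (c : List ℕ) : Type := {p : Fin c.length → ℕ // BoxP c p}

noncomputable instance (c : List ℕ) : Fintype (Box c) := by
  haveI : Finite (Box c) :=
    Finite.of_injective (β := (j : Fin c.length) → Fin (c.get j))
      (fun p j => ⟨p.1 j, p.2.lt j⟩) fun p q h => by
        apply Subtype.ext
        funext j
        have := congrFun h j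
        exact congrArg Fin.val this
  exact Fintype.ofFinite _

theorem StairP.box {c : List ℕ} {p : Fin c.length → ℕ} (h : StairP c p) : BoxP c p := fun j => by
  rcases h j with h | ⟨h, h', -⟩
  · exact Or.inl h
  · exact Or.inr ⟨h, h'⟩

instance {c : List ℕ} [h : Nonempty (Stair c)] : Nonempty (Box c) :=
  h.map fun p => ⟨p.1, StairP.box p.2⟩

/-- the gate functions: `b j` is evaluated at the variable `j + 1` -/
structure GateOK (c : List ℕ) (d : ℝ) (b : Fin c.length → ℂ → ℝ) : Prop where
  cont : ∀ j, Continuous (b j)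
  hom : ∀ j (r : ℝ), 0 ≤ r → ∀ z, b j (r • z) = r * b j z
  nonneg : ∀ j z, 0 ≤ b j z
  neg : ∀ j (z : ℂ), z.re < 0 → |z.im| ≤ d * |z.re| → b j z = 0
  small : ∀ j (k : ℕ) (z : ℂ), k < c.get j → 0 < z.re → |z.im - k * z.re| ≤ d * z.re → b j z = 0
  big : ∀ (j : Fin c.length) (h : (j : ℕ) + 1 < c.length) (k : ℕ) (z : ℂ), c.get j ≤ k →
    (k + 1 < c.get ⟨j + 1, h⟩ ∨ (k + 1 = c.get ⟨j + 1, h⟩ ∧ (j : ℕ) + 2 < c.length)) →
    0 < z.re → |z.im - k * z.re| ≤ d * z.re → z.re ≤ b j z

/-- **The gated ray function.** -/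
noncomputable def GR (ε : ℝ) (c : List ℕ) [Nonempty (Box c)] (M : Fin c.length → ℝ)
    (b : Fin c.length → ℂ → ℝ) (x : Fin c.length → ℂ) : ℂ :=
  ⟨Finset.univ.sup' Finset.univ_nonempty fun p : Box c => ∑ j, ray ε (p.1 j) (x j) -
    ∑ j : Fin c.length, (if h : (j : ℕ) + 1 < c.length then
      (if p.1 j + 1 = c.get j then M j * b j (x ⟨j + 1, h⟩) else 0) else 0), turnSum x⟩

/-! ### the family -/

/-- predecessor -/
def pr {n : ℕ} (m : Fin n) : Fin n := ⟨m - 1, by omega⟩

theorem sum_shift {n : ℕ} (g : Fin n → Fin n → ℝ) :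
    ∑ j : Fin n, (if h : (j : ℕ) + 1 < n then g j ⟨j + 1, h⟩ else 0) =
      ∑ m : Fin n, (if 0 < (m : ℕ) then g (pr m) m else 0) := by
  rcases n with _ | n
  · simp
  · rw [Fin.sum_univ_castSucc, Fin.sum_univ_succ]
    have h1 : (if h : ((Fin.last n : Fin (n + 1)) : ℕ) + 1 < n + 1 then
        g (Fin.last n) ⟨(Fin.last n : Fin (n + 1)) + 1, h⟩ else 0) = 0 := by
      rw [dif_neg]
      simp
    have h2 : (if 0 < ((0 : Fin (n + 1)) : ℕ) then g (pr 0) 0 else 0) = 0 := by
      rw [if_neg]
      simp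
    rw [h1, h2, add_zero, zero_add]
    refine Finset.sum_congr rfl fun j _ => ?_
    rw [dif_pos (by simp), if_pos (by simp)]
    congr 1

section Fam

variable (ε : ℝ) (c : List ℕ) (M : Fin c.length → ℝ) (b : Fin c.length → ℂ → ℝ)

/-- the penalty of the variable `m` -/
noncomputable def pn (t : ℝ) (p : Fin c.length → ℕ) (m : Fin c.length) (z : ℂ) : ℝ :=
  if 0 < (m : ℕ) then (if p (pr m) + 1 = c.get (pr m) then
    (1 - t) * (M (pr m) * b (pr m) z) +
      t * (if c.get (pr m) ≤ p m then (c.get m : ℝ) * max z.re 0 else 0) else 0) else 0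

/-- the value at `p` -/
noncomputable def VV (t : ℝ) (p : Fin c.length → ℕ) (x : Fin c.length → ℂ) : ℝ :=
  ∑ m, (ray ε (p m) (x m) - pn c M b t p m (x m))

/-- the family -/
noncomputable def FV [Nonempty (Box c)] (t : ℝ) (x : Fin c.length → ℂ) : ℂ :=
  ⟨Finset.univ.sup' Finset.univ_nonempty fun p : Box c => VV ε c M b t p.1 x, turnSum x⟩

theorem FV_zero [Nonempty (Box c)] : FV ε c M b 0 = GR ε c M b := by
  funext x
  unfold FV GR
  congr 1
  refine Finset.sup'_congr _ rfl fun p _ => ?_
  unfold VV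
  rw [Finset.sum_sub_distrib]
  congr 1
  rw [sum_shift (fun j m => if p.1 j + 1 = c.get j then M j * b j (x m) else 0)]
  refine Finset.sum_congr rfl fun m _ => ?_
  unfold pn
  simp

end Fam

section Est

variable {ε : ℝ} {c : List ℕ} {M : Fin c.length → ℝ} {b : Fin c.length → ℂ → ℝ} {d : ℝ}

theorem pn_nonneg (hM : ∀ j, 1 ≤ M j) (hb : GateOK c d b) {t : ℝ} (h0 : 0 ≤ t) (h1 : t ≤ 1)
    (p : Fin c.length → ℕ) (m : Fin c.length) (z : ℂ) : 0 ≤ pn c M b t p m z := by
  unfold pn
  split_ifs
  · have := hb.nonneg (pr m) z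
    have h2 := hM (pr m)
    have : 0 ≤ (1 - t) * (M (pr m) * b (pr m) z) :=
      mul_nonneg (by linarith) (mul_nonneg (by linarith) this)
    have h3 : 0 ≤ t * ((c.get m : ℝ) * max z.re 0) :=
      mul_nonneg h0 (mul_nonneg (Nat.cast_nonneg _) (le_max_right _ _))
    linarith
  · have := hb.nonneg (pr m) z
    have h2 := hM (pr m)
    have : 0 ≤ (1 - t) * (M (pr m) * b (pr m) z) :=
      mul_nonneg (by linarith) (mul_nonneg (by linarith) this)
    linarith
  · exact le_rfl
  · exact le_rfl

theorem pn_zero (hb : GateOK c d b) {t : ℝ} {p : Fin c.length → ℕ} {m : Fin c.length} {z : ℂ}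
    (h : (z.re < 0 ∧ |z.im| ≤ d * |z.re|) ∨ (0 < z.re ∧ |z.im - p m * z.re| ≤ d * z.re ∧
      (0 < (m : ℕ) → p (pr m) + 1 = c.get (pr m) → p m < c.get (pr m)))) :
    pn c M b t p m z = 0 := by
  unfold pn
  by_cases h1 : 0 < (m : ℕ)
  swap
  · rw [if_neg h1]
  rw [if_pos h1]
  by_cases h2 : p (pr m) + 1 = c.get (pr m)
  swap
  · rw [if_neg h2]
  rw [if_pos h2]
  rcases h with ⟨h3, h4⟩ | ⟨h3, h4, h5⟩
  · rw [hb.neg _ _ h3 h4, max_eq_right h3.le]
    simp
  · have h6 := h5 h1 h2
    rw [hb.small _ _ _ h6 h3 h4, if_neg (not_le.2 h6)]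
    simp

theorem sum_ray_le (hε : 0 ≤ ε) (p : Fin c.length → ℕ) {x : Fin c.length → ℂ} {T : ℝ}
    (hT : ∀ i, |(x i).re| ≤ T) : ∑ m, ray ε (p m) (x m) ≤ ε * c.length * T := by
  have h1 : ∀ m ∈ (Finset.univ : Finset (Fin c.length)), ray ε (p m) (x m) ≤ ε * T := by
    intro m _
    unfold ray
    have h2 := mul_le_mul_of_nonneg_left (hT m) hε
    have h3 := abs_nonneg ((x m).im - p m * max (x m).re 0)
    linarith
  refine (Finset.sum_le_card_nsmul _ _ _ h1).trans (le_of_eq ?_)
  rw [Finset.card_univ, Fintype.card_fin, nsmul_eq_mul]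
  ring

theorem small_of_nonneg (hε : 0 ≤ ε) (hM : ∀ j, 1 ≤ M j) (hb : GateOK c d b) {t : ℝ}
    (h0 : 0 ≤ t) (h1 : t ≤ 1) {p : Fin c.length → ℕ} {x : Fin c.length → ℂ}
    (hV : 0 ≤ VV ε c M b t p x) {T : ℝ} (hT : ∀ i, |(x i).re| ≤ T) (i : Fin c.length) :
    |(x i).im - p i * max (x i).re 0| ≤ 2 * ε * c.length * T := by
  unfold VV at hV
  rw [Finset.sum_sub_distrib] at hV
  have h2 : 0 ≤ ∑ m, pn c M b t p m (x m) :=
    Finset.sum_nonneg fun m _ => pn_nonneg hM hb h0 h1 p m _
  have h3 : ∑ m, ray ε (p m) (x m) = ∑ m, ε * |(x m).re| -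
      ∑ m, |(x m).im - p m * max (x m).re 0| / 2 := by
    rw [← Finset.sum_sub_distrib]
    rfl
  have h4 : |(x i).im - p i * max (x i).re 0| / 2 ≤
      ∑ m, |(x m).im - p m * max (x m).re 0| / 2 :=
    Finset.single_le_sum (f := fun m => |(x m).im - p m * max (x m).re 0| / 2)
      (fun m _ => by positivity) (Finset.mem_univ i)
  have h5 : ∑ m, ε * |(x m).re| ≤ ε * c.length * T := by
    have h6 : ∀ m ∈ (Finset.univ : Finset (Fin c.length)), ε * |(x m).re| ≤ ε * T :=
      fun m _ => mul_le_mul_of_nonneg_left (hT m) hε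
    refine (Finset.sum_le_card_nsmul _ _ _ h6).trans (le_of_eq ?_)
    rw [Finset.card_univ, Fintype.card_fin, nsmul_eq_mul]
    ring
  linarith

theorem gate_off (hε : 0 ≤ ε) (hM : ∀ j, 1 ≤ M j) (hb : GateOK c d b) {t : ℝ}
    (h0 : 0 ≤ t) (h1 : t ≤ 1) {p : Fin c.length → ℕ} (hp : BoxP c p) {x : Fin c.length → ℂ}
    (hV : 0 ≤ VV ε c M b t p x) {T : ℝ} (hT : ∀ i, |(x i).re| ≤ T) {j : Fin c.length}
    (hj : (x j).re = T) (hT0 : 0 < T) (hn : ε * c.length < 1) (hd : 2 * ε * c.length ≤ d)
    (hj0 : 0 < (j : ℕ)) (hg : p (pr j) + 1 = c.get (pr j)) : p j < c.get (pr j) := by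
  by_contra hcon
  push Not at hcon
  have h2 := small_of_nonneg hε hM hb h0 h1 hV hT j
  have hpj := hp.lt j
  have hre : 0 < (x j).re := by rw [hj]; exact hT0
  rw [max_eq_left hre.le] at h2
  have h3 : |(x j).im - p j * (x j).re| ≤ d * (x j).re := by
    refine h2.trans ?_
    rw [hj]
    exact mul_le_mul_of_nonneg_right hd hT0.le
  have hlen : ((pr j : Fin c.length) : ℕ) + 1 < c.length := by
    have := j.2
    show (j : ℕ) - 1 + 1 < c.length
    omega
  have hjj : (⟨(pr j : ℕ) + 1, hlen⟩ : Fin c.length) = j := by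
    apply Fin.ext
    show (j : ℕ) - 1 + 1 = j
    omega
  have h4 : (x j).re ≤ b (pr j) (x j) := by
    refine hb.big (pr j) hlen (p j) (x j) hcon ?_ hre h3
    rw [hjj]
    rcases hp j with h | ⟨h, h'⟩
    · exact Or.inl h
    · refine Or.inr ⟨h, ?_⟩
      show (j : ℕ) - 1 + 2 < c.length
      omega
  have h5 : T ≤ pn c M b t p j (x j) := by
    unfold pn
    rw [if_pos hj0, if_pos hg, if_pos hcon, max_eq_left hre.le, hj]
    rw [hj] at h4
    have h6 : T ≤ M (pr j) * b (pr j) (x j) := by
      have := hM (pr j)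
      nlinarith
    have h7 : (1 : ℝ) ≤ c.get j := by
      have : 1 ≤ c.get j := by omega
      exact_mod_cast this
    have h8 : T ≤ (c.get j : ℝ) * T := by nlinarith
    nlinarith [mul_le_mul_of_nonneg_left h6 (show 0 ≤ 1 - t by linarith),
      mul_le_mul_of_nonneg_left h8 h0]
  unfold VV at hV
  rw [Finset.sum_sub_distrib] at hV
  have h6 : pn c M b t p j (x j) ≤ ∑ m, pn c M b t p m (x m) :=
    Finset.single_le_sum (f := fun m => pn c M b t p m (x m))
      (fun m _ => pn_nonneg hM hb h0 h1 p m _) (Finset.mem_univ j)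
  have h7 := sum_ray_le (c := c) hε p hT
  nlinarith

theorem VV_diff (hb : GateOK c d b) {p : Fin c.length → ℕ} {x : Fin c.length → ℂ}
    {j : Fin c.length} {k : ℕ} (hk : (x j).re < 0 ∨ p j = k)
    (h : ((x j).re < 0 ∧ |(x j).im| < d * |(x j).re|) ∨ (0 < (x j).re ∧
      |(x j).im - p j * (x j).re| < d * (x j).re ∧
      (0 < (j : ℕ) → p (pr j) + 1 = c.get (pr j) → p j < c.get (pr j)))) :
    ∀ᶠ y : Fin c.length → ℂ in 𝓝 x, ∀ t, VV ε c M b t p y =
      VV ε c M b t p (Function.update y j (x j)) + (ray ε k (y j) - ray ε k (x j)) := by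
  have hc1 : ContinuousAt (fun y : Fin c.length → ℂ => (y j).re) x :=
    (Complex.continuous_re.comp (continuous_apply j)).continuousAt
  have hc2 : ContinuousAt (fun y : Fin c.length → ℂ => (y j).im) x :=
    (Complex.continuous_im.comp (continuous_apply j)).continuousAt
  -- the conclusion from the two facts
  have key : ∀ y : Fin c.length → ℂ, (∀ t, pn c M b t p j (y j) = 0) →
      (∀ t, pn c M b t p j (x j) = 0) →
      ray ε (p j) (y j) - ray ε (p j) (x j) = ray ε k (y j) - ray ε k (x j) →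
      ∀ t, VV ε c M b t p y = VV ε c M b t p (Function.update y j (x j)) +
        (ray ε k (y j) - ray ε k (x j)) := by
    intro y e1 e2 e3 t
    unfold VV
    rw [sum_update_diff (fun m z => ray ε (p m) z - pn c M b t p m z) y j (x j), e1, e2]
    linarith
  rcases h with ⟨h1, h2⟩ | ⟨h1, h2, h3⟩
  · have e1 : ∀ᶠ y : Fin c.length → ℂ in 𝓝 x, (y j).re < 0 := hc1.eventually (gt_mem_nhds h1)
    have e2 : ∀ᶠ y : Fin c.length → ℂ in 𝓝 x, |(y j).im| < d * |(y j).re| :=
      hc2.abs.eventually_lt (hc1.abs.const_mul d) h2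
    filter_upwards [e1, e2] with y hy1 hy2
    refine key y (fun t => pn_zero hb (Or.inl ⟨hy1, hy2.le⟩))
      (fun t => pn_zero hb (Or.inl ⟨h1, h2.le⟩)) ?_
    unfold ray
    rw [max_eq_right hy1.le, max_eq_right h1.le]
    simp
  · have hpk : p j = k := by
      rcases hk with h | h
      · linarith
      · exact h
    have e1 : ∀ᶠ y : Fin c.length → ℂ in 𝓝 x, 0 < (y j).re := hc1.eventually (lt_mem_nhds h1)
    have e2 : ∀ᶠ y : Fin c.length → ℂ in 𝓝 x, |(y j).im - p j * (y j).re| < d * (y j).re :=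
      (hc2.sub (hc1.const_mul _)).abs.eventually_lt (hc1.const_mul d) h2
    filter_upwards [e1, e2] with y hy1 hy2
    refine key y (fun t => pn_zero hb (Or.inr ⟨hy1, hy2.le, h3⟩))
      (fun t => pn_zero hb (Or.inr ⟨h1, h2.le, h3⟩)) ?_
    rw [hpk]

theorem continuous_pn (hb : GateOK c d b) (p : Fin c.length → ℕ) (m : Fin c.length) :
    Continuous fun q : ℝ × ℂ => pn c M b q.1 p m q.2 := by
  have h2 : Continuous fun q : ℝ × ℂ => b (pr m) q.2 := (hb.cont (pr m)).comp continuous_snd
  have h3 : Continuous fun q : ℝ × ℂ => (1 - q.1) * (M (pr m) * b (pr m) q.2) :=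
    (continuous_const.sub continuous_fst).mul (continuous_const.mul h2)
  have h4 : Continuous fun q : ℝ × ℂ => q.1 * ((c.get m : ℝ) * max q.2.re 0) :=
    continuous_fst.mul (continuous_const.mul
      ((Complex.continuous_re.comp continuous_snd).max continuous_const))
  unfold pn
  split_ifs
  · exact h3.add h4
  · exact h3.add (continuous_fst.mul continuous_const)
  · exact continuous_const
  · exact continuous_const

theorem continuous_VV (hb : GateOK c d b) (p : Fin c.length → ℕ) :
    Continuous fun q : ℝ × (Fin c.length → ℂ) => VV ε c M b q.1 p q.2 := by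
  unfold VV
  refine continuous_finsetSum _ fun m _ => ?_
  refine Continuous.sub ?_ ?_
  · exact (continuous_ray' ε (p m)).comp ((continuous_apply m).comp continuous_snd)
  · exact (continuous_pn hb p m).comp
      (continuous_fst.prodMk ((continuous_apply m).comp continuous_snd))

theorem continuous_turnSum : Continuous fun x : Fin c.length → ℂ => turnSum x := by
  unfold turnSum
  exact continuous_finsetSum _ fun m _ => continuous_turn'.comp (continuous_apply m)

theorem continuous_FV [Nonempty (Box c)] (hb : GateOK c d b) :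
    Continuous fun q : ℝ × (Fin c.length → ℂ) => FV ε c M b q.1 q.2 := by
  have h1 : (fun q : ℝ × (Fin c.length → ℂ) => FV ε c M b q.1 q.2) = fun q =>
      ((Finset.univ.sup' Finset.univ_nonempty fun p : Box c => VV ε c M b q.1 p.1 q.2 : ℝ) : ℂ) +
        ((turnSum q.2 : ℝ) : ℂ) * Complex.I := by
    funext q
    apply Complex.ext
    · simp [FV]
    · simp [FV]
  rw [h1]
  have h2 : Continuous fun q : ℝ × (Fin c.length → ℂ) =>
      Finset.univ.sup' (Finset.univ_nonempty (α := Box c)) fun p => VV ε c M b q.1 p.1 q.2 :=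
    Continuous.finset_sup'_apply _ fun p _ => continuous_VV hb p.1
  have h3 : Continuous fun q : ℝ × (Fin c.length → ℂ) => turnSum q.2 :=
    continuous_turnSum.comp continuous_snd
  exact (Complex.continuous_ofReal.comp h2).add
    ((Complex.continuous_ofReal.comp h3).mul continuous_const)

theorem pn_smul (hb : GateOK c d b) {r : ℝ} (hr : 0 ≤ r) (t : ℝ) (p : Fin c.length → ℕ)
    (m : Fin c.length) (z : ℂ) : pn c M b t p m (r • z) = r * pn c M b t p m z := by
  have h1 : max (r * z.re) 0 = r * max z.re 0 := by rw [mul_max_of_nonneg _ _ hr, mul_zero]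
  unfold pn
  rw [hb.hom _ r hr, Complex.smul_re, smul_eq_mul, h1]
  split_ifs <;> ring

theorem VV_smul (hb : GateOK c d b) {r : ℝ} (hr : 0 ≤ r) (t : ℝ) (p : Fin c.length → ℕ)
    (x : Fin c.length → ℂ) : VV ε c M b t p (r • x) = r * VV ε c M b t p x := by
  unfold VV
  rw [Finset.mul_sum]
  refine Finset.sum_congr rfl fun m _ => ?_
  rw [Pi.smul_apply, ray_smul' hr, pn_smul hb hr]
  ring

theorem sup'_smul {σ : Type} [Fintype σ] [Nonempty σ] {r : ℝ} (hr : 0 ≤ r) (f : σ → ℝ) :
    (Finset.univ.sup' Finset.univ_nonempty fun a => r * f a) =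
      r * Finset.univ.sup' Finset.univ_nonempty f := by
  apply le_antisymm
  · refine Finset.sup'_le _ _ fun a _ => ?_
    exact mul_le_mul_of_nonneg_left (Finset.le_sup' f (Finset.mem_univ a)) hr
  · obtain ⟨a, _, ha⟩ := Finset.exists_mem_eq_sup' (Finset.univ_nonempty (α := σ)) f
    rw [ha]
    exact Finset.le_sup' (fun a => r * f a) (Finset.mem_univ a)

theorem turnSum_smul {r : ℝ} (hr : 0 ≤ r) (x : Fin c.length → ℂ) :
    turnSum (r • x) = r * turnSum x := by
  unfold turnSum
  rw [Finset.mul_sum]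
  exact Finset.sum_congr rfl fun m _ => turn_smul' hr _

theorem hom1_FV [Nonempty (Box c)] (hb : GateOK c d b) (t : ℝ) : Hom1 (FV ε c M b t) := by
  intro r hr x
  apply Complex.ext
  · rw [Complex.smul_re, smul_eq_mul]
    show (Finset.univ.sup' Finset.univ_nonempty fun p : Box c => VV ε c M b t p.1 (r • x)) =
      r * Finset.univ.sup' Finset.univ_nonempty fun p : Box c => VV ε c M b t p.1 x
    simp only [VV_smul hb hr]
    exact sup'_smul hr _
  · rw [Complex.smul_im, smul_eq_mul]
    exact turnSum_smul hr x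

/-- **The penalty path is of class `H`.** -/
theorem hFam_FV [Nonempty (Box c)] (hd0 : 0 < d) (hε : 0 < ε) (hM : ∀ j, 1 ≤ M j)
    (hb : GateOK c d b) (hn : 16 * (ε * c.length) < 1) (hd : 2 * ε * c.length < d) :
    HFam (Icc (0 : ℝ) 1) (FV ε c M b) where
  cont := (continuous_FV hb).continuousOn
  hom := fun t _ => hom1_FV hb t
  reg := by
    rintro τ ⟨h0, h1⟩ x hx hre
    have hre' : 0 ≤ Finset.univ.sup' Finset.univ_nonempty
      fun p : Box c => VV ε c M b τ p.1 x := hre
    obtain ⟨p₀, -, hp₀⟩ := Finset.exists_mem_eq_sup' (Finset.univ_nonempty (α := Box c))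
      fun p => VV ε c M b τ p.1 x
    rw [hp₀] at hre'
    -- the dominating variable
    have hne : Nonempty (Fin c.length) := by
      by_contra hcon
      rw [not_nonempty_iff] at hcon
      exact hx (Subsingleton.elim _ _)
    obtain ⟨j, -, hj⟩ := Finset.exists_max_image (Finset.univ : Finset (Fin c.length))
      (fun i => |(x i).re|) Finset.univ_nonempty
    have hT : ∀ i, |(x i).re| ≤ |(x j).re| := fun i => hj i (Finset.mem_univ i)
    set T := |(x j).re| with hTdef
    have hT0 : 0 < T := by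
      rcases (abs_nonneg (x j).re).eq_or_lt with h | h
      · exfalso
        apply hx
        funext i
        have hi : (x i).re = 0 := by
          have := hT i
          rw [hTdef, ← h] at this
          exact abs_eq_zero.1 (le_antisymm this (abs_nonneg _))
        have hi2 := small_of_nonneg hε.le hM hb h0 h1 hre' hT i
        rw [hTdef, ← h, hi, max_self, mul_zero, mul_zero, sub_zero] at hi2
        apply Complex.ext
        · exact hi
        · exact abs_eq_zero.1 (le_antisymm hi2 (abs_nonneg _))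
      · exact h
    have hlen0 : (0 : ℝ) ≤ c.length := Nat.cast_nonneg _
    have hεn : 0 ≤ ε * c.length := by positivity
    have hsm : ∀ p : Box c, 0 ≤ VV ε c M b τ p.1 x →
        |(x j).im - p.1 j * max (x j).re 0| ≤ 2 * ε * c.length * T :=
      fun p hp => small_of_nonneg hε.le hM hb h0 h1 hp hT j
    have hne0 : (x j).re ≠ 0 := by
      intro h
      rw [hTdef, h, abs_zero] at hT0
      exact lt_irrefl _ hT0
    have hlt4 : 2 * ε * c.length * T < T / 4 := by nlinarith
    have hltd : 2 * ε * c.length * T < d * T := by nlinarith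
    refine regAt_of_diff hε (j := j) (k := p₀.1 j) hne0 ((hsm p₀ hre').trans_lt hlt4) ?_
    -- the behaviour in the variable `j`
    have hπ : Tendsto (fun q : ℝ × (Fin c.length → ℂ) => (q.1, Function.update q.2 j (x j)))
        (𝓝[Icc (0 : ℝ) 1] τ ×ˢ 𝓝 x) (𝓝[Icc (0 : ℝ) 1] τ ×ˢ 𝓝 x) := by
      have h2 : Continuous fun y : Fin c.length → ℂ => Function.update y j (x j) :=
        continuous_id.update j continuous_const
      have h3 := h2.tendsto x
      rw [Function.update_eq_self] at h3
      exact (tendsto_fst).prodMk (h3.comp tendsto_snd)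
    have hle : 𝓝[Icc (0 : ℝ) 1] τ ×ˢ 𝓝 x ≤ 𝓝 (τ, x) := by
      rw [nhds_prod_eq]
      exact Filter.prod_mono nhdsWithin_le_nhds le_rfl
    have hsup := sup_diff (σ := Box c) (l := 𝓝[Icc (0 : ℝ) 1] τ ×ˢ 𝓝 x)
      (V := fun p q => VV ε c M b q.1 p.1 q.2)
      (π := fun q => (q.1, Function.update q.2 j (x j)))
      (d := fun q => ray ε (p₀.1 j) (q.2 j) - ray ε (p₀.1 j) (x j)) hπ
      (fun p => 0 ≤ VV ε c M b τ p.1 x) ?_ ?_
    · filter_upwards [hsup] with q hq
      apply Complex.ext
      · exact hq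
      · show turnSum q.2 = turnSum (Function.update q.2 j (x j)) + (turn (q.2 j) - turn (x j))
        exact sum_update_diff (fun _ => turn) q.2 j (x j)
    · intro p
      by_cases hp : 0 ≤ VV ε c M b τ p.1 x
      · exact ⟨p, hp, Eventually.of_forall fun _ => le_rfl⟩
      · refine ⟨p₀, hre', ?_⟩
        push Not at hp
        have h2 : ∀ᶠ q : ℝ × (Fin c.length → ℂ) in 𝓝 (τ, x),
            VV ε c M b q.1 p.1 q.2 < VV ε c M b q.1 p₀.1 q.2 :=
          ((continuous_VV hb p.1).continuousAt).eventually_lt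
            ((continuous_VV hb p₀.1).continuousAt) (hp.trans_le hre')
        filter_upwards [hle h2] with q hq using hq.le
    · intro p hp
      have h2 : ∀ᶠ y : Fin c.length → ℂ in 𝓝 x, ∀ t, VV ε c M b t p.1 y =
          VV ε c M b t p.1 (Function.update y j (x j)) +
            (ray ε (p₀.1 j) (y j) - ray ε (p₀.1 j) (x j)) := by
        have h3 := hsm p hp
        have h4 := hsm p₀ hre'
        rcases lt_or_gt_of_ne hne0 with h5 | h5
        · refine VV_diff hb (Or.inl h5) (Or.inl ⟨h5, ?_⟩)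
          rw [max_eq_right h5.le, mul_zero, sub_zero] at h3
          exact h3.trans_lt hltd
        · have hjT : (x j).re = T := by rw [hTdef, abs_of_pos h5]
          rw [max_eq_left h5.le] at h3 h4
          have hpp : p.1 j = p₀.1 j := by
            by_contra hcon
            have h6 : (1 : ℝ) ≤ |((p.1 j : ℕ) : ℝ) - (p₀.1 j : ℕ)| := by
              have h7 : (1 : ℤ) ≤ |((p.1 j : ℕ) : ℤ) - (p₀.1 j : ℕ)| :=
                Int.one_le_abs (by
                  intro h8
                  apply hcon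
                  have : ((p.1 j : ℕ) : ℤ) = (p₀.1 j : ℕ) := by linarith
                  exact_mod_cast this)
              exact_mod_cast h7
            have h7 : |((p.1 j : ℕ) : ℝ) - (p₀.1 j : ℕ)| * (x j).re ≤ 4 * ε * c.length * T := by
              have e : |((p.1 j : ℕ) : ℝ) - (p₀.1 j : ℕ)| * (x j).re =
                  |((x j).im - p₀.1 j * (x j).re) - ((x j).im - p.1 j * (x j).re)| := by
                rw [← abs_of_pos h5, ← abs_mul, abs_of_pos h5]
                congr 1
                ring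
              rw [e]
              refine (abs_sub _ _).trans ?_
              linarith
            rw [hjT] at h7
            nlinarith
          refine VV_diff hb (Or.inr hpp) (Or.inr ⟨h5, ?_, ?_⟩)
          · rw [hjT] at h3 ⊢
            exact h3.trans_lt hltd
          · intro h6 h7
            exact gate_off hε.le hM hb h0 h1 p.2 hp hT hjT hT0 (by linarith) hd.le h6 h7
      have h3 : ∀ᶠ q : ℝ × (Fin c.length → ℂ) in 𝓝[Icc (0 : ℝ) 1] τ ×ˢ 𝓝 x,
          ∀ t, VV ε c M b t p.1 q.2 = VV ε c M b t p.1 (Function.update q.2 j (x j)) +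
            (ray ε (p₀.1 j) (q.2 j) - ray ε (p₀.1 j) (x j)) :=
        (tendsto_snd (f := 𝓝[Icc (0 : ℝ) 1] τ)).eventually h2
      filter_upwards [h3] with q hq
      exact hq q.1

/-! ### the end of the path -/

/-- the point of the staircase below a point of the box -/
def dn (c : List ℕ) (p : Fin c.length → ℕ) (m : Fin c.length) : ℕ :=
  if 0 < (m : ℕ) ∧ p (pr m) + 1 = c.get (pr m) ∧ c.get (pr m) ≤ p m then 0 else p m

theorem dn_stair (hc : ∀ a ∈ c, 2 ≤ a) {p : Fin c.length → ℕ} (hp : BoxP c p) :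
    StairP c (dn c p) := by
  intro j
  have h2 := hc _ (List.get_mem c j)
  by_cases h : 0 < (j : ℕ) ∧ p (pr j) + 1 = c.get (pr j) ∧ c.get (pr j) ≤ p j
  · left
    unfold dn
    rw [if_pos h]
    omega
  · have e : dn c p j = p j := by
      unfold dn
      rw [if_neg h]
    rw [e]
    rcases hp j with h3 | ⟨h3, h4⟩
    · exact Or.inl h3
    · refine Or.inr ⟨h3, h4, ?_⟩
      have h5 : pr (⟨j + 1, h4⟩ : Fin c.length) = j := by
        apply Fin.ext
        show (j : ℕ) + 1 - 1 = j
        omega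
      unfold dn
      rw [h5]
      split_ifs with h6
      · omega
      · by_contra hcon
        push Not at hcon
        exact h6 ⟨by simp, h3, hcon⟩

theorem VV_one_le {p : Fin c.length → ℕ} (hp : BoxP c p) (x : Fin c.length → ℂ) :
    VV ε c M b 1 p x ≤ ∑ m, ray ε (dn c p m) (x m) := by
  unfold VV
  refine Finset.sum_le_sum fun m _ => ?_
  by_cases h : 0 < (m : ℕ) ∧ p (pr m) + 1 = c.get (pr m) ∧ c.get (pr m) ≤ p m
  · have e1 : dn c p m = 0 := by
      unfold dn
      rw [if_pos h]
    have e2 : pn c M b 1 p m (x m) = (c.get m : ℝ) * max (x m).re 0 := by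
      unfold pn
      rw [if_pos h.1, if_pos h.2.1, if_pos h.2.2]
      ring
    rw [e1, e2]
    unfold ray
    have h3 : (p m : ℝ) ≤ c.get m := by exact_mod_cast (hp.lt m).le
    have h4 : 0 ≤ max (x m).re 0 := le_max_right _ _
    have h5 : |(x m).im - ((0 : ℕ) : ℝ) * max (x m).re 0| ≤
        |(x m).im - p m * max (x m).re 0| + p m * max (x m).re 0 := by
      have e : (x m).im - ((0 : ℕ) : ℝ) * max (x m).re 0 =
          ((x m).im - p m * max (x m).re 0) + p m * max (x m).re 0 := by
        push_cast; ring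
      rw [e]
      refine (abs_add_le _ _).trans ?_
      rw [abs_of_nonneg (show 0 ≤ (p m : ℝ) * max (x m).re 0 by positivity)]
    have h6 : (p m : ℝ) * max (x m).re 0 ≤ c.get m * max (x m).re 0 :=
      mul_le_mul_of_nonneg_right h3 h4
    have h7 : 0 ≤ (p m : ℝ) * max (x m).re 0 := by positivity
    simp only [Nat.cast_zero, zero_mul, sub_zero] at h5 ⊢
    linarith
  · have e1 : dn c p m = p m := by
      unfold dn
      rw [if_neg h]
    have e2 : 0 ≤ pn c M b 1 p m (x m) := by
      unfold pn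
      split_ifs
      · have : 0 ≤ (c.get m : ℝ) * max (x m).re 0 :=
          mul_nonneg (Nat.cast_nonneg _) (le_max_right _ _)
        simpa using this
      · simp
      · exact le_rfl
      · exact le_rfl
    rw [e1]
    linarith

theorem VV_one_eq {p : Fin c.length → ℕ} (hp : StairP c p) (x : Fin c.length → ℂ) :
    VV ε c M b 1 p x = ∑ m, ray ε (p m) (x m) := by
  unfold VV
  refine Finset.sum_congr rfl fun m _ => ?_
  have e2 : pn c M b 1 p m (x m) = 0 := by
    unfold pn
    by_cases h1 : 0 < (m : ℕ)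
    swap
    · rw [if_neg h1]
    rw [if_pos h1]
    by_cases h2 : p (pr m) + 1 = c.get (pr m)
    swap
    · rw [if_neg h2]
    rw [if_pos h2]
    have h3 : p m < c.get (pr m) := by
      rcases hp (pr m) with h3 | ⟨-, h4, h5⟩
      · omega
      · have h6 : (⟨(pr m : ℕ) + 1, h4⟩ : Fin c.length) = m := by
          apply Fin.ext
          show (m : ℕ) - 1 + 1 = m
          omega
        rwa [h6] at h5
    rw [if_neg (not_le.2 h3)]
    ring
  rw [e2, sub_zero]

theorem FV_one [Nonempty (Stair c)] (hc : ∀ a ∈ c, 2 ≤ a) :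
    FV ε c M b 1 = FS ε fun p : Stair c => p.1 := by
  funext x
  apply Complex.ext
  · show (Finset.univ.sup' Finset.univ_nonempty fun p : Box c => VV ε c M b 1 p.1 x) =
      Finset.univ.sup' Finset.univ_nonempty fun p : Stair c => ∑ j, ray ε (p.1 j) (x j)
    apply le_antisymm
    · refine Finset.sup'_le _ _ fun p _ => (VV_one_le p.2 x).trans ?_
      exact Finset.le_sup' (fun q : Stair c => ∑ j, ray ε (q.1 j) (x j))
        (Finset.mem_univ (⟨dn c p.1, dn_stair hc p.2⟩ : Stair c))
    · refine Finset.sup'_le _ _ fun p _ => ?_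
      rw [← VV_one_eq (ε := ε) (M := M) (b := b) p.2 x]
      exact Finset.le_sup' (fun q : Box c => VV ε c M b 1 q.1 x)
        (Finset.mem_univ (⟨p.1, StairP.box p.2⟩ : Box c))
  · rfl

/-- **The gated ray function is equivalent to the ray function of the staircase**, for all small
`ε` and all gate strengths at least one. -/
theorem gate_hEqv [Nonempty (Stair c)] (hc : ∀ a ∈ c, 2 ≤ a) (hd : 0 < d) :
    ∃ ε₁ > 0, ∀ b, GateOK c d b → ∀ ε ∈ Ioc (0 : ℝ) ε₁, ∀ M : Fin c.length → ℝ,
      (∀ j, 1 ≤ M j) → HEqv (GR ε c M b) (FS ε fun p : Stair c => p.1) := by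
  have hn0 : (0 : ℝ) ≤ c.length := Nat.cast_nonneg _
  refine ⟨min (1 / (32 * (c.length + 1))) (d / (4 * (c.length + 1))), by positivity,
    fun b hb ε hε M hM => ?_⟩
  have h1 : ε * (32 * (c.length + 1)) ≤ 1 := by
    have := hε.2.trans (min_le_left _ _)
    rwa [le_div_iff₀ (by positivity)] at this
  have h2 : ε * (4 * (c.length + 1)) ≤ d := by
    have := hε.2.trans (min_le_right _ _)
    rwa [le_div_iff₀ (by positivity)] at this
  have hε0 := hε.1
  have h3 := HEqv.of_path (hFam_FV (ε := ε) (M := M) hd hε0 hM hb (by nlinarith) (by nlinarith))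
  rwa [FV_zero, FV_one hc] at h3

end Est

end GateR

end Vale.Agent.P268.T
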