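import Vale.Agent.P268.T.K373.Def

/-!
# P268, topological half, block B1GF: the common direction at a dominating ray

`Rep ε j k F x`: near `x` the function `F` is `ray ε k (x j) + i turn (x j)` plus a function that
does not depend on the variable `j`.  Two such functions are monotone along a common direction.
-/

set_option linter.unusedSectionVars false

namespace Vale.Agent.P268.T

open Set Filter Topology

namespace GateR

/-! ### one plane -/

theorem tri_eq {w : ℝ} {k : ℤ} (h : |w - k| ≤ 1 / 4) : tri w = w - k := by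
  rw [abs_le] at h
  have e : Int.fract (w + 1 / 4) = w + 1 / 4 - k := by
    rw [Int.fract_eq_iff]
    refine ⟨by linarith, by linarith, ⟨k, by ring⟩⟩
  unfold tri
  rw [e, abs_of_nonpos (by linarith)]
  ring

theorem turn_pos {z : ℂ} {k : ℕ} (h0 : 0 < z.re) (h : |z.im - k * z.re| ≤ z.re / 4) :
    turn z = z.im - k * z.re := by
  have h1 : |z.im / |z.re| - (k : ℤ)| ≤ 1 / 4 := by
    rw [abs_of_pos h0]
    have e : z.im / z.re - ((k : ℤ) : ℝ) = (z.im - k * z.re) / z.re := by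
      push_cast
      field_simp
    rw [e, abs_div, abs_of_pos h0, div_le_iff₀ h0]
    linarith
  unfold turn
  rw [tri_eq h1, abs_of_pos h0]
  push_cast
  field_simp

theorem turn_neg {z : ℂ} (h0 : z.re < 0) (h : |z.im| ≤ |z.re| / 4) : turn z = -z.im := by
  have h2 : 0 < |z.re| := abs_pos.2 h0.ne
  have h1 : |z.im / |z.re| - ((0 : ℤ) : ℝ)| ≤ 1 / 4 := by
    rw [Int.cast_zero, sub_zero, abs_div, abs_abs, div_le_iff₀ h2]
    linarith
  unfold turn
  rw [tri_eq h1, abs_of_neg h0]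
  push_cast
  have : z.re ≠ 0 := h0.ne
  field_simp
  ring

/-- the direction in one plane: `c.re` stretches along the ray, `c.im` turns -/
noncomputable def D (k : ℕ) (s R : ℝ) : ℂ →L[ℝ] ℂ :=
  LinearMap.toContinuousLinearMap
    { toFun := fun c => ⟨R * s * c.re, R * (k * max s 0) * c.re + s * c.im⟩
      map_add' := fun a b => by
        apply Complex.ext
        · simp; ring
        · simp; ring
      map_smul' := fun r a => by
        apply Complex.ext
        · simp; ring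
        · simp; ring }

theorem D_apply (k : ℕ) (s R : ℝ) (c : ℂ) :
    D k s R c = ⟨R * s * c.re, R * (k * max s 0) * c.re + s * c.im⟩ := rfl

theorem abs_half (w t : ℝ) : |(|w| - |w + t|) / 2| ≤ |t| / 2 := by
  rw [abs_div, abs_of_pos (show (0 : ℝ) < 2 by norm_num)]
  have h := abs_abs_sub_abs_le_abs_sub w (w + t)
  have e : w - (w + t) = -t := by ring
  rw [e, abs_neg] at h
  linarith

theorem incr_pos {ε R : ℝ} (hR : ε * R = 1) {k : ℕ} {z c : ℂ} (h0 : 0 < z.re)
    (h1 : 0 < (z + D k 1 R c).re) (hz : |z.im - k * z.re| ≤ z.re / 4)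
    (hz' : |(z + D k 1 R c).im - k * (z + D k 1 R c).re| ≤ (z + D k 1 R c).re / 4) :
    |ray ε k (z + D k 1 R c) - ray ε k z - c.re| ≤ |c.im| / 2 ∧
      turn (z + D k 1 R c) - turn z = c.im := by
  have er : (z + D k 1 R c).re = z.re + R * c.re := by
    rw [D_apply]; simp
  have ei : (z + D k 1 R c).im = z.im + (R * k * c.re + c.im) := by
    rw [D_apply]; simp
  constructor
  · have h1' : 0 < z.re + R * c.re := by rw [← er]; exact h1
    unfold ray
    rw [er, ei]
    rw [max_eq_left h0.le, max_eq_left h1'.le, abs_of_pos h0, abs_of_pos h1']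
    have e : ε * (z.re + R * c.re) - |z.im + (R * k * c.re + c.im) - k * (z.re + R * c.re)| / 2 -
        (ε * z.re - |z.im - k * z.re| / 2) - c.re =
        (ε * R - 1) * c.re + (|z.im - k * z.re| - |(z.im - k * z.re) + c.im|) / 2 := by
      have : z.im + (R * k * c.re + c.im) - k * (z.re + R * c.re) =
        (z.im - k * z.re) + c.im := by ring
      rw [this]; ring
    rw [e, hR, sub_self, zero_mul, zero_add]
    exact abs_half _ _
  · rw [turn_pos h0 hz, turn_pos h1 hz', er, ei]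
    ring

theorem incr_neg {ε R : ℝ} (hR : ε * R = 1) {k : ℕ} {z c : ℂ} (h0 : z.re < 0)
    (h1 : (z + D k (-1) R c).re < 0) (hz : |z.im| ≤ |z.re| / 4)
    (hz' : |(z + D k (-1) R c).im| ≤ |(z + D k (-1) R c).re| / 4) :
    |ray ε k (z + D k (-1) R c) - ray ε k z - c.re| ≤ |c.im| / 2 ∧
      turn (z + D k (-1) R c) - turn z = c.im := by
  have er : (z + D k (-1) R c).re = z.re - R * c.re := by
    rw [D_apply]; simp; ring
  have ei : (z + D k (-1) R c).im = z.im - c.im := by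
    rw [D_apply]
    have : max (-1 : ℝ) 0 = 0 := max_eq_right (by norm_num)
    simp
    ring
  constructor
  · have h1' : z.re - R * c.re < 0 := by rw [← er]; exact h1
    unfold ray
    rw [er, ei]
    rw [max_eq_right h0.le, max_eq_right h1'.le, abs_of_neg h0, abs_of_neg h1', mul_zero, sub_zero,
      sub_zero]
    have e : ε * -(z.re - R * c.re) - |z.im - c.im| / 2 - (ε * -z.re - |z.im| / 2) - c.re =
        (ε * R - 1) * c.re + (|z.im| - |z.im + (-c.im)|) / 2 := by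
      rw [← sub_eq_add_neg]; ring
    rw [e, hR, sub_self, zero_mul, zero_add]
    have := abs_half z.im (-c.im)
    rwa [abs_neg] at this
  · rw [turn_neg h0 hz, turn_neg h1 hz', ei]
    ring

/-! ### representation near a point -/

variable {ι : Type} [Fintype ι] [DecidableEq ι]

/-- near `x`, `F` is the ray `k` in the plane `j` plus something independent of the variable `j` -/
def Rep (ε : ℝ) (j : ι) (k : ℕ) (F : (ι → ℂ) → ℂ) (x : ι → ℂ) : Prop :=
  ∃ G H : (ι → ℂ) → ℝ, (∀ y w, G (Function.update y j w) = G y) ∧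
    (∀ y w, H (Function.update y j w) = H y) ∧
    ∀ᶠ y in 𝓝 x, F y = ⟨ray ε k (y j) + G y, turn (y j) + H y⟩

/-- the direction in the space of all variables -/
noncomputable def AD (j : ι) (k : ℕ) (s R : ℝ) : ℂ →L[ℝ] (ι → ℂ) :=
  (ContinuousLinearMap.single ℝ (fun _ : ι => ℂ) j).comp (D k s R)

theorem add_AD (j : ι) (k : ℕ) (s R : ℝ) (y : ι → ℂ) (c : ℂ) :
    y + AD j k s R c = Function.update y j (y j + D k s R c) := by
  funext i
  by_cases hi : i = j
  · subst hi
    rw [Function.update_self]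
    simp [AD]
  · rw [Function.update_of_ne hi]
    simp [AD, Pi.single_eq_of_ne hi]

theorem quad {a b e : ℝ} (he : |e| ≤ |b| / 2) : 1 / 2 * (a ^ 2 + b ^ 2) ≤ (a + e) * a + b * b := by
  have h1 : -(|b| / 2 * |a|) ≤ e * a := by
    have := neg_abs_le (e * a)
    rw [abs_mul] at this
    nlinarith [abs_nonneg a]
  have h2 : |a| ^ 2 = a ^ 2 := sq_abs a
  have h3 : |b| ^ 2 = b ^ 2 := sq_abs b
  nlinarith [sq_nonneg (|a| - |b|), sq_nonneg (|a|), sq_nonneg (|b|)]

theorem mon_step {c P : ℂ} (h1 : |P.re - c.re| ≤ |c.im| / 2) (h2 : P.im = c.im) :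
    1 / 2 * ‖c‖ ^ 2 ≤ P.re * c.re + P.im * c.im ∧ ‖P‖ ≤ 3 * ‖c‖ := by
  constructor
  · rw [sq_norm_eq, h2]
    have e : P.re = c.re + (P.re - c.re) := by ring
    rw [e]
    exact quad h1
  · have h3 := Complex.norm_le_abs_re_add_abs_im P
    have h4 : |P.re| ≤ |c.re| + |P.re - c.re| := by
      have := abs_add_le c.re (P.re - c.re)
      rwa [add_sub_cancel] at this
    rw [h2] at h3
    have h5 := Complex.abs_re_le_norm c
    have h6 := Complex.abs_im_le_norm c
    linarith [norm_nonneg c]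

theorem mon_pos {ε : ℝ} (hε : 0 < ε) {j : ι} {k : ℕ} {F : (ι → ℂ) → ℂ} {x : ι → ℂ}
    (h0 : 0 < (x j).re) (hx : |(x j).im - k * (x j).re| < (x j).re / 4) (hF : Rep ε j k F x) :
    ∃ U ∈ 𝓝 x, MonOn (1 / 2) 3 F (AD j k 1 ε⁻¹) U := by
  obtain ⟨G, H, hG, hH, hev⟩ := hF
  have hR : ε * ε⁻¹ = 1 := mul_inv_cancel₀ hε.ne'
  have hc1 : ContinuousAt (fun y : ι → ℂ => (y j).re) x :=
    (Complex.continuous_re.comp (continuous_apply j)).continuousAt
  have hc2 : ContinuousAt (fun y : ι → ℂ => |(y j).im - k * (y j).re|) x :=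
    (((Complex.continuous_im.comp (continuous_apply j)).sub
      (continuous_const.mul (Complex.continuous_re.comp (continuous_apply j)))).abs).continuousAt
  have e1 : ∀ᶠ y : ι → ℂ in 𝓝 x, 0 < (y j).re := hc1.eventually (lt_mem_nhds h0)
  have e2 : ∀ᶠ y : ι → ℂ in 𝓝 x, |(y j).im - k * (y j).re| < (y j).re / 4 :=
    hc2.eventually_lt (hc1.div_const 4) hx
  refine ⟨{y | F y = ⟨ray ε k (y j) + G y, turn (y j) + H y⟩ ∧ 0 < (y j).re ∧
    |(y j).im - k * (y j).re| < (y j).re / 4}, hev.and (e1.and e2), ?_⟩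
  rintro y ⟨hy1, hy2, hy3⟩ c ⟨hz1, hz2, hz3⟩
  rw [add_AD] at hz1 hz2 hz3 ⊢
  rw [Function.update_self] at hz1 hz2 hz3
  rw [hG, hH] at hz1
  obtain ⟨h1, h2⟩ := incr_pos hR hy2 hz2 hy3.le hz3.le
  refine mon_step ?_ ?_
  · rw [hz1, hy1]
    have : ((⟨ray ε k (y j + D k 1 ε⁻¹ c) + G y, turn (y j + D k 1 ε⁻¹ c) + H y⟩ : ℂ) -
      ⟨ray ε k (y j) + G y, turn (y j) + H y⟩).re - c.re =
      ray ε k (y j + D k 1 ε⁻¹ c) - ray ε k (y j) - c.re := by simp
    rw [this]
    exact h1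
  · rw [hz1, hy1, ← h2]
    simp

theorem mon_neg {ε : ℝ} (hε : 0 < ε) {j : ι} {k : ℕ} {F : (ι → ℂ) → ℂ} {x : ι → ℂ}
    (h0 : (x j).re < 0) (hx : |(x j).im| < |(x j).re| / 4) (hF : Rep ε j k F x) :
    ∃ U ∈ 𝓝 x, MonOn (1 / 2) 3 F (AD j k (-1) ε⁻¹) U := by
  obtain ⟨G, H, hG, hH, hev⟩ := hF
  have hR : ε * ε⁻¹ = 1 := mul_inv_cancel₀ hε.ne'
  have hc1 : ContinuousAt (fun y : ι → ℂ => (y j).re) x :=
    (Complex.continuous_re.comp (continuous_apply j)).continuousAt
  have hc2 : ContinuousAt (fun y : ι → ℂ => |(y j).im|) x :=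
    ((Complex.continuous_im.comp (continuous_apply j)).abs).continuousAt
  have e1 : ∀ᶠ y : ι → ℂ in 𝓝 x, (y j).re < 0 := hc1.eventually (gt_mem_nhds h0)
  have e2 : ∀ᶠ y : ι → ℂ in 𝓝 x, |(y j).im| < |(y j).re| / 4 :=
    hc2.eventually_lt (hc1.abs.div_const 4) hx
  refine ⟨{y | F y = ⟨ray ε k (y j) + G y, turn (y j) + H y⟩ ∧ (y j).re < 0 ∧
    |(y j).im| < |(y j).re| / 4}, hev.and (e1.and e2), ?_⟩
  rintro y ⟨hy1, hy2, hy3⟩ c ⟨hz1, hz2, hz3⟩
  rw [add_AD] at hz1 hz2 hz3 ⊢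
  rw [Function.update_self] at hz1 hz2 hz3
  rw [hG, hH] at hz1
  obtain ⟨h1, h2⟩ := incr_neg (k := k) hR hy2 hz2 hy3.le hz3.le
  refine mon_step ?_ ?_
  · rw [hz1, hy1]
    have : ((⟨ray ε k (y j + D k (-1) ε⁻¹ c) + G y, turn (y j + D k (-1) ε⁻¹ c) + H y⟩ : ℂ) -
      ⟨ray ε k (y j) + G y, turn (y j) + H y⟩).re - c.re =
      ray ε k (y j + D k (-1) ε⁻¹ c) - ray ε k (y j) - c.re := by simp
    rw [this]
    exact h1
  · rw [hz1, hy1, ← h2]
    simp

/-- **the common direction** -/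
theorem monAt₂_of_rep {ε : ℝ} (hε : 0 < ε) {j : ι} {k : ℕ} {F F' : (ι → ℂ) → ℂ} {x : ι → ℂ}
    (h0 : (x j).re ≠ 0) (hx : |(x j).im - k * max (x j).re 0| < |(x j).re| / 4)
    (hF : Rep ε j k F x) (hF' : Rep ε j k F' x) : MonAt₂ F F' x := by
  rcases lt_or_gt_of_ne h0 with h | h
  · rw [max_eq_right h.le, mul_zero, sub_zero] at hx
    obtain ⟨U, hU, h1⟩ := mon_neg hε h hx hF
    obtain ⟨U', hU', h1'⟩ := mon_neg hε h hx hF'
    exact ⟨1 / 2, 3, by norm_num, _, U ∩ U', inter_mem hU hU', h1.mono_set inter_subset_left,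
      h1'.mono_set inter_subset_right⟩
  · rw [max_eq_left h.le, abs_of_pos h] at hx
    obtain ⟨U, hU, h1⟩ := mon_pos hε h hx hF
    obtain ⟨U', hU', h1'⟩ := mon_pos hε h hx hF'
    exact ⟨1 / 2, 3, by norm_num, _, U ∩ U', inter_mem hU hU', h1.mono_set inter_subset_left,
      h1'.mono_set inter_subset_right⟩

end GateR

end Vale.Agent.P268.T
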